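import Vale.Agent.P250.H154.Main
/-!
For every `n ≥ 3` there is a simply connected domain `M` in `ℂⁿ` with a complete Kaehler metric
whose sectional curvatures lie between two negative constants, which is not biholomorphic to a
bounded domain, and on which all bounded holomorphic functions (and all bounded holomorphic maps
into normed spaces) are stationary in a transversal direction along a complex surface.
-/

namespace Vale.Agent.Results.P250.CaratheodoryDegenerate

open Vale.Agent.P250.S Vale.Agent.P250.H154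

theorem result (n : ℕ) (hn : 3 ≤ n) (K : ℕ) :
    ∃ (M : Set (EuclideanSpace ℂ (Fin n)))
      (g : EuclideanSpace ℂ (Fin n) → EuclideanSpace ℂ (Fin n) → EuclideanSpace ℂ (Fin n) → ℝ)
      (Γ : EuclideanSpace ℂ (Fin n) → EuclideanSpace ℂ (Fin n) → EuclideanSpace ℂ (Fin n) →
        EuclideanSpace ℂ (Fin n)),
    IsOpen M ∧ SimplyConnectedSpace M ∧ IsKaehlerMetric g M ∧ IsLeviCivita g Γ M ∧
    GeodesicallyComplete Γ M ∧
    (∃ a b : ℝ, 0 < a ∧ a ≤ b ∧ ∀ p ∈ M, ∀ X Y, LinearIndependent ℝ ![X, Y] →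
      -b ≤ sectional g Γ p X Y ∧ sectional g Γ p X Y ≤ -a) ∧
    ¬ BiholomorphicToBoundedDomain M ∧
    ∃ (L : Submodule ℂ (EuclideanSpace ℂ (Fin n))) (v : EuclideanSpace ℂ (Fin n)),
      Module.finrank ℂ L = 2 ∧ v ∉ L ∧ (M ∩ L).Nonempty ∧
      (∀ p ∈ M ∩ L, FlatAt M K p v) ∧ (∀ p ∈ M ∩ L, StationaryAt M p v) :=
  Vale.Agent.P250.H154.main_all' n hn K

end Vale.Agent.Results.P250.CaratheodoryDegenerate
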