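import Vale.Agent.P250.H286.Main
/-!
For every `n ≥ 3` there is a simply connected domain `M` in `ℂⁿ` with a complete Kaehler metric
whose sectional curvatures lie between two negative constants, which is not biholomorphic to a
bounded domain, although it is biholomorphic to a Hartogs domain `{|x| < 1, |w| < r(x)}` over the
unit ball of `ℂⁿ⁻¹` with `r(x) ≤ (1 - |x|)^(-η)` and a finite `m`-th moment.
-/

namespace Vale.Agent.Results.P250.FiniteVolume

open Vale.Agent.P250.S Vale.Agent.P250.H286 MeasureTheory Metric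

theorem result (n : ℕ) (hn : 3 ≤ n) (m : ℕ) (η : ℝ) (hη : 0 < η) :
    ∃ (M : Set (EuclideanSpace ℂ (Fin n)))
      (g : EuclideanSpace ℂ (Fin n) → EuclideanSpace ℂ (Fin n) → EuclideanSpace ℂ (Fin n) → ℝ)
      (Γ : EuclideanSpace ℂ (Fin n) → EuclideanSpace ℂ (Fin n) → EuclideanSpace ℂ (Fin n) →
        EuclideanSpace ℂ (Fin n)),
    IsOpen M ∧ SimplyConnectedSpace M ∧ IsKaehlerMetric g M ∧ IsLeviCivita g Γ M ∧
    GeodesicallyComplete Γ M ∧
    (∃ a b : ℝ, 0 < a ∧ a ≤ b ∧ ∀ p ∈ M, ∀ X Y, LinearIndependent ℝ ![X, Y] →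
      -b ≤ sectional g Γ p X Y ∧ sectional g Γ p X Y ≤ -a) ∧
    ¬ BiholomorphicToBoundedDomain M ∧
    ∃ r : EuclideanSpace ℂ (Fin (n - 1)) → ℝ, ContDiffOn ℝ (⊤ : ℕ∞) r (ball 0 1) ∧
      (∀ x ∈ ball (0 : EuclideanSpace ℂ (Fin (n - 1))) 1, 0 < r x ∧ r x ≤ (1 - ‖x‖) ^ (-η)) ∧
      IntegrableOn (fun p => (1 + ‖p‖) ^ m) (Hartogs r) volume ∧
      Biholomorphic M (Hartogs r) :=
  Vale.Agent.P250.H286.main_all n hn m η hη

end Vale.Agent.Results.P250.FiniteVolume
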