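import Vale.Agent.P250.H3.Fam
/-!
For every `n ≥ 3` there are infinitely many pairwise non-biholomorphic simply connected domains in
`ℂⁿ` with complete Kaehler metrics whose sectional curvatures lie between two negative constants,
none of which is biholomorphic to a bounded domain, although the bounded holomorphic functions
separate the points.
-/

namespace Vale.Agent.Results.P250.SeparatingFamily

open Vale.Agent.P250.S Vale.Agent.P250.H154 Vale.Agent.P250.H3

theorem result (n : ℕ) (hn : 3 ≤ n) :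
    ∃ (M : ℕ → Set (EuclideanSpace ℂ (Fin n)))
      (g : ℕ → EuclideanSpace ℂ (Fin n) → EuclideanSpace ℂ (Fin n) →
        EuclideanSpace ℂ (Fin n) → ℝ)
      (Γ : ℕ → EuclideanSpace ℂ (Fin n) → EuclideanSpace ℂ (Fin n) →
        EuclideanSpace ℂ (Fin n) → EuclideanSpace ℂ (Fin n)),
    (∀ i, IsOpen (M i) ∧ SimplyConnectedSpace (M i) ∧ IsKaehlerMetric (g i) (M i) ∧
      IsLeviCivita (g i) (Γ i) (M i) ∧ GeodesicallyComplete (Γ i) (M i) ∧
      (∃ a b : ℝ, 0 < a ∧ a ≤ b ∧ ∀ p ∈ M i, ∀ X Y, LinearIndependent ℝ ![X, Y] →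
        -b ≤ sectional (g i) (Γ i) p X Y ∧ sectional (g i) (Γ i) p X Y ≤ -a) ∧
      ¬ BiholomorphicToBoundedDomain (M i) ∧ SeparatesPoints (M i) ∧
      ∃ p ∈ M i, ∃ v, v ≠ 0 ∧ StationaryAt (M i) p v) ∧
    ∀ i j, i ≠ j → ¬ Biholomorphic (M i) (M j) := by
  obtain ⟨M, g, Γ, h, hne⟩ := family n hn
  refine ⟨M, g, Γ, fun i => ?_, hne⟩
  obtain ⟨⟨h1, h2, h3, h4, h5, h6, h7⟩, h8, h9⟩ := h i
  exact ⟨h1, h2, h3, h4, h5, h6, h7, h8, h9⟩

end Vale.Agent.Results.P250.SeparatingFamily
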